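import Vale.Agent.P340.Reduce

universe u

namespace Vale.Agent.Results.P340.FiniteReduction

open Vale.Agent.P340

/-- The Barendregt-Geuvers-Klop conjecture for all pure type systems is equivalent to its restriction
to specifications with finitely many sorts. -/
theorem result :
    (∀ (S : Type u) (P : Spec S), WeaklyNormalizing P → StronglyNormalizing P) ↔
      (∀ (n : ℕ) (P : Spec (Fin n)), WeaklyNormalizing P → StronglyNormalizing P) := by
  constructor
  · intro h n P hwn
    rintro M ⟨Γ, B, hM⟩ ⟨f, hf0, hf⟩
    let g : ULift.{u} (Fin n) → Fin n := ULift.down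
    let Q : Spec (ULift.{u} (Fin n)) := P.pullback g
    have key : ∀ {Δ : List (Tm (Fin n))} {A C : Tm (Fin n)}, Typed P Δ A C →
        Typed Q (Δ.map (Tm.sortMap ULift.up)) (A.sortMap ULift.up) (C.sortMap ULift.up) :=
      fun {Δ A C} d => typed_map (P := Q) ULift.up d
    exact h _ Q (wn_pullback g hwn) (M.sortMap ULift.up)
      ⟨_, B.sortMap ULift.up, hM.imp key key⟩
      ⟨fun i => (f i).sortMap ULift.up, by simp [hf0], fun i => red_map _ (hf i)⟩
  · intro h S P hwn
    exact sn_of_finite h P hwn

end Vale.Agent.Results.P340.FiniteReduction
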